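import Mathlib
import Vale.Agent.P087.Defs

/-!
# Normalised Hilbert-Schmidt norm, clipping and powers of near-unitaries (P087, upper bound)
-/

namespace VAgent.P087

open Matrix
open scoped Matrix Matrix.Norms.L2Operator ComplexConjugate

noncomputable section

variable {k : ℕ}

/-- Squared Hilbert-Schmidt norm. -/
def hsSq (A : Matrix (Fin k) (Fin k) ℂ) : ℝ := ∑ a, ∑ b, ‖A a b‖ ^ 2

/-- A matrix as a vector of `ℂ^(k×k)`. -/
def toE (A : Matrix (Fin k) (Fin k) ℂ) : EuclideanSpace ℂ (Fin k × Fin k) :=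
  WithLp.toLp 2 fun p => A p.1 p.2

/-- The normalised Hilbert-Schmidt norm, the square root of `ntr (Aᴴ * A)`. -/
def nrm2 (A : Matrix (Fin k) (Fin k) ℂ) : ℝ := ‖toE A‖ / Real.sqrt k

theorem hsSq_nonneg (A : Matrix (Fin k) (Fin k) ℂ) : 0 ≤ hsSq A := by
  unfold hsSq; positivity

theorem norm_toE_sq (A : Matrix (Fin k) (Fin k) ℂ) : ‖toE A‖ ^ 2 = hsSq A := by
  rw [EuclideanSpace.norm_sq_eq, Fintype.sum_prod_type]
  rfl

theorem nrm2_nonneg (A : Matrix (Fin k) (Fin k) ℂ) : 0 ≤ nrm2 A := by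
  unfold nrm2; positivity

theorem nrm2_sq (A : Matrix (Fin k) (Fin k) ℂ) : nrm2 A ^ 2 = hsSq A / k := by
  rw [nrm2, div_pow, norm_toE_sq, Real.sq_sqrt (Nat.cast_nonneg k)]

theorem nrm2_le_of_hsSq_le {A B : Matrix (Fin k) (Fin k) ℂ} (h : hsSq A ≤ hsSq B) :
    nrm2 A ≤ nrm2 B := by
  rw [← pow_le_pow_iff_left₀ (nrm2_nonneg A) (nrm2_nonneg B) two_ne_zero, nrm2_sq, nrm2_sq]
  gcongr

theorem nrm2_add_le (A B : Matrix (Fin k) (Fin k) ℂ) : nrm2 (A + B) ≤ nrm2 A + nrm2 B := by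
  unfold nrm2
  rw [← add_div]
  gcongr
  exact norm_add_le (toE A) (toE B)

theorem nrm2_neg (A : Matrix (Fin k) (Fin k) ℂ) : nrm2 (-A) = nrm2 A := by
  unfold nrm2
  rw [show toE (-A) = -toE A from rfl, norm_neg]

theorem nrm2_sub_le (A B : Matrix (Fin k) (Fin k) ℂ) : nrm2 (A - B) ≤ nrm2 A + nrm2 B := by
  rw [sub_eq_add_neg, ← nrm2_neg B]
  exact nrm2_add_le A (-B)

theorem nrm2_smul (c : ℂ) (A : Matrix (Fin k) (Fin k) ℂ) : nrm2 (c • A) = ‖c‖ * nrm2 A := by
  unfold nrm2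
  rw [show toE (c • A) = c • toE A from rfl, norm_smul, mul_div_assoc]

theorem nrm2_zero : nrm2 (0 : Matrix (Fin k) (Fin k) ℂ) = 0 := by
  unfold nrm2
  rw [show toE (0 : Matrix (Fin k) (Fin k) ℂ) = 0 from rfl, norm_zero, zero_div]

theorem hsSq_conjTranspose (A : Matrix (Fin k) (Fin k) ℂ) : hsSq Aᴴ = hsSq A := by
  unfold hsSq
  rw [Finset.sum_comm]
  simp [Matrix.conjTranspose_apply]

theorem nrm2_conjTranspose (A : Matrix (Fin k) (Fin k) ℂ) : nrm2 Aᴴ = nrm2 A :=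
  le_antisymm (nrm2_le_of_hsSq_le (hsSq_conjTranspose A).le)
    (nrm2_le_of_hsSq_le (hsSq_conjTranspose A).ge)

theorem trace_conjTranspose_mul_self (A : Matrix (Fin k) (Fin k) ℂ) :
    (Aᴴ * A).trace = (hsSq A : ℂ) := by
  simp only [Matrix.trace, Matrix.diag, Matrix.mul_apply, Matrix.conjTranspose_apply, hsSq]
  rw [Finset.sum_comm]
  push_cast
  refine Finset.sum_congr rfl fun a _ => Finset.sum_congr rfl fun b _ => ?_
  rw [← Complex.conj_mul']
  rfl

theorem ntr_conjTranspose_mul_self (A : Matrix (Fin k) (Fin k) ℂ) :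
    (ntr (Aᴴ * A)).re = nrm2 A ^ 2 := by
  rw [nrm2_sq, ntr, trace_conjTranspose_mul_self, ← Complex.ofReal_natCast, ← Complex.ofReal_inv,
    ← Complex.ofReal_mul, Complex.ofReal_re, inv_mul_eq_div]

theorem hsSq_mul_le (A B : Matrix (Fin k) (Fin k) ℂ) : hsSq (A * B) ≤ ‖A‖ ^ 2 * hsSq B := by
  have hcol : ∀ (M : Matrix (Fin k) (Fin k) ℂ), hsSq M
      = ∑ b, ‖(WithLp.toLp 2 (M.col b) : EuclideanSpace ℂ (Fin k))‖ ^ 2 := by
    intro M
    unfold hsSq
    rw [Finset.sum_comm]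
    simp [EuclideanSpace.norm_sq_eq, Matrix.col]
  rw [hcol, hcol, Finset.mul_sum]
  refine Finset.sum_le_sum fun b _ => ?_
  rw [← mul_pow]
  refine pow_le_pow_left₀ (norm_nonneg _) ?_ 2
  have h := Matrix.l2_opNorm_mulVec A (WithLp.toLp 2 (B.col b) : EuclideanSpace ℂ (Fin k))
  have e : (A * B).col b = A *ᵥ (B.col b) := by
    ext a
    simp [Matrix.col, Matrix.mulVec, Matrix.mul_apply, dotProduct]
  rw [e]
  exact h

theorem nrm2_mul_le (A B : Matrix (Fin k) (Fin k) ℂ) : nrm2 (A * B) ≤ ‖A‖ * nrm2 B := by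
  rw [← pow_le_pow_iff_left₀ (nrm2_nonneg _) (mul_nonneg (norm_nonneg A) (nrm2_nonneg B))
    two_ne_zero, mul_pow, nrm2_sq, nrm2_sq, mul_div_assoc']
  gcongr
  exact hsSq_mul_le A B

theorem nrm2_mul_le' (A B : Matrix (Fin k) (Fin k) ℂ) : nrm2 (A * B) ≤ nrm2 A * ‖B‖ := by
  rw [← nrm2_conjTranspose (A * B), Matrix.conjTranspose_mul, ← nrm2_conjTranspose A,
    ← Matrix.l2_opNorm_conjTranspose B, mul_comm (nrm2 Aᴴ)]
  exact nrm2_mul_le _ _

theorem nrm2_one_le : nrm2 (1 : Matrix (Fin k) (Fin k) ℂ) ≤ 1 := by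
  rw [← pow_le_pow_iff_left₀ (nrm2_nonneg _) zero_le_one two_ne_zero, nrm2_sq, one_pow]
  refine div_le_one_of_le₀ (le_of_eq ?_) (Nat.cast_nonneg k)
  simp [hsSq, Matrix.one_apply, apply_ite (fun z : ℂ => ‖z‖ ^ 2)]

theorem nrm2_le_opNorm (A : Matrix (Fin k) (Fin k) ℂ) : nrm2 A ≤ ‖A‖ := by
  calc nrm2 A = nrm2 (A * 1) := by rw [mul_one]
    _ ≤ ‖A‖ * nrm2 (1 : Matrix (Fin k) (Fin k) ℂ) := nrm2_mul_le A 1
    _ ≤ ‖A‖ * 1 := mul_le_mul_of_nonneg_left nrm2_one_le (norm_nonneg A)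
    _ = ‖A‖ := mul_one _

theorem norm_one_le : ‖(1 : Matrix (Fin k) (Fin k) ℂ)‖ ≤ 1 := by
  rw [← Matrix.diagonal_one, Matrix.l2_opNorm_diagonal]
  exact (pi_norm_le_iff_of_nonneg zero_le_one).2 fun i => by simp

theorem norm_pow_le_one {U : Matrix (Fin k) (Fin k) ℂ} (hU : ‖U‖ ≤ 1) (g : ℕ) : ‖U ^ g‖ ≤ 1 := by
  induction g with
  | zero => simpa using norm_one_le
  | succ g ih =>
    rw [pow_succ]
    exact (norm_mul_le _ _).trans (mul_le_one₀ ih (norm_nonneg _) hU)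

theorem opNorm_le_of_opLe {A : Matrix (Fin k) (Fin k) ℂ} {R : ℝ} (hR : 0 ≤ R) (h : OpLe A R) :
    ‖A‖ ≤ R := by
  rw [Matrix.cstar_norm_def]
  refine ContinuousLinearMap.opNorm_le_bound _ hR fun x => ?_
  rw [← pow_le_pow_iff_left₀ (norm_nonneg _) (mul_nonneg hR (norm_nonneg _)) two_ne_zero, mul_pow,
    EuclideanSpace.norm_sq_eq, EuclideanSpace.norm_sq_eq, Matrix.ofLp_toEuclideanCLM]
  exact h x.ofLp

/-- Clipping: a contraction which is as close to `T` as `Tᴴ * T` is to `1`. -/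
theorem exists_contraction (T : Matrix (Fin k) (Fin k) ℂ) :
    ∃ U : Matrix (Fin k) (Fin k) ℂ, ‖U‖ ≤ 1 ∧
      ∀ y, nrm2 ((U - T) * y) ≤ nrm2 ((1 - Tᴴ * T) * y) := by
  set S := Tᴴ * T with hS
  have hSa : IsSelfAdjoint S := IsSelfAdjoint.star_mul_self T
  have hspec : ∀ x ∈ spectrum ℝ S, 0 ≤ x := by
    intro x hx
    have hH : S.IsHermitian := hSa
    rw [hH.spectrum_real_eq_range_eigenvalues] at hx
    obtain ⟨i, rfl⟩ := hx
    open scoped ComplexOrder in
    exact (Matrix.posSemidef_conjTranspose_mul_self T).eigenvalues_nonneg i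
  set f : ℝ → ℝ := fun s => (max 1 (Real.sqrt s))⁻¹ with hf
  have hfc : Continuous f := (continuous_const.max Real.continuous_sqrt).inv₀ fun s =>
    (lt_of_lt_of_le one_pos (le_max_left _ _)).ne'
  set h := cfc f S with hh
  have hha : hᴴ = h := (cfc_predicate f S : IsSelfAdjoint h)
  refine ⟨T * h, ?_, fun y => ?_⟩
  · have e : (T * h)ᴴ * (T * h) = cfc (fun s => f s * s * f s) S := by
      rw [cfc_mul (fun s => f s * s) f S ((hfc.mul continuous_id).continuousOn) hfc.continuousOn,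
        cfc_mul f (fun s => s) S hfc.continuousOn continuous_id.continuousOn, cfc_id' ℝ S hSa,
        Matrix.conjTranspose_mul, hha, hh, hS]
      simp only [mul_assoc]
    have hb : ‖(T * h)ᴴ * (T * h)‖ ≤ 1 := by
      rw [e]
      refine norm_cfc_le zero_le_one fun x hx => ?_
      have hx0 := hspec x hx
      have hm : (0 : ℝ) < max 1 (Real.sqrt x) := lt_of_lt_of_le one_pos (le_max_left _ _)
      have hfx : f x * Real.sqrt x ≤ 1 := by
        rw [hf, inv_mul_le_iff₀ hm, mul_one]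
        exact le_max_right _ _
      have hf0 : 0 ≤ f x := inv_nonneg.2 hm.le
      rw [Real.norm_eq_abs, abs_of_nonneg (by positivity)]
      calc f x * x * f x = (f x * Real.sqrt x) ^ 2 := by
            rw [mul_pow, Real.sq_sqrt hx0]; ring
        _ ≤ 1 := pow_le_one₀ (by positivity) hfx
    rw [Matrix.l2_opNorm_conjTranspose_mul_self] at hb
    nlinarith [norm_nonneg (T * h)]
  · set φ : ℝ → ℝ := fun s => (1 - s) * (1 - s) - (f s - 1) * s * (f s - 1) with hφ
    have hφ0 : ∀ x ∈ spectrum ℝ S, 0 ≤ φ x := by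
      intro x hx
      have hx0 := hspec x hx
      obtain ⟨r, hr0, rfl⟩ : ∃ r, 0 ≤ r ∧ x = r ^ 2 :=
        ⟨Real.sqrt x, Real.sqrt_nonneg x, (Real.sq_sqrt hx0).symm⟩
      simp only [hφ, hf, Real.sqrt_sq hr0]
      rcases le_or_gt r 1 with h1 | h1
      · rw [max_eq_left h1]
        nlinarith [sq_nonneg (1 - r ^ 2)]
      · rw [max_eq_right h1.le]
        have hne : r ≠ 0 := by linarith
        have e : (r⁻¹ - 1) * r ^ 2 * (r⁻¹ - 1) = (1 - r) ^ 2 := by field_simp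
        rw [e]
        nlinarith [sq_nonneg (1 - r), mul_nonneg hr0 (sq_nonneg (1 - r))]
    set q := cfc (fun s => Real.sqrt (φ s)) S with hq
    have hφc : Continuous φ := by
      simp only [hφ]; fun_prop
    have hqa : qᴴ = q := (cfc_predicate (fun s => Real.sqrt (φ s)) S : IsSelfAdjoint q)
    have hqq : q * q = cfc φ S := by
      rw [hq, ← cfc_mul _ _ S (hφc.sqrt.continuousOn) (hφc.sqrt.continuousOn)]
      exact cfc_congr fun x hx => Real.mul_self_sqrt (hφ0 x hx)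
    have hc1 : Continuous fun s : ℝ => 1 - s := continuous_const.sub continuous_id
    have hc2 : Continuous fun s : ℝ => f s - 1 := hfc.sub continuous_const
    have h1 : cfc (fun s : ℝ => 1 - s) S = 1 - S := by
      rw [cfc_sub (fun _ : ℝ => (1 : ℝ)) (fun s => s) S continuous_const.continuousOn
        continuous_id.continuousOn, cfc_const_one ℝ S hSa, cfc_id' ℝ S hSa]
    have h2 : cfc (fun s : ℝ => f s - 1) S = h - 1 := by
      rw [cfc_sub f (fun _ : ℝ => (1 : ℝ)) S hfc.continuousOn continuous_const.continuousOn,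
        cfc_const_one ℝ S hSa]
    have hcfc : cfc φ S = (1 - S) * (1 - S) - (h - 1) * S * (h - 1) := by
      simp only [hφ]
      rw [cfc_sub (fun s => (1 - s) * (1 - s)) (fun s => (f s - 1) * s * (f s - 1)) S
          (hc1.mul hc1).continuousOn ((hc2.mul continuous_id).mul hc2).continuousOn,
        cfc_mul (fun s => (1 - s)) (fun s => (1 - s)) S hc1.continuousOn hc1.continuousOn,
        cfc_mul (fun s => (f s - 1) * s) (fun s => f s - 1) S
          (hc2.mul continuous_id).continuousOn hc2.continuousOn,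
        cfc_mul (fun s => f s - 1) (fun s => s) S hc2.continuousOn continuous_id.continuousOn,
        cfc_id' ℝ S hSa, h1, h2]
    have hone : (1 - S)ᴴ = 1 - S := by
      rw [Matrix.conjTranspose_sub, Matrix.conjTranspose_one]
      exact congrArg (fun M => 1 - M) hSa
    have key : ((1 - S) * y)ᴴ * ((1 - S) * y)
        = ((T * h - T) * y)ᴴ * ((T * h - T) * y) + (q * y)ᴴ * (q * y) := by
      have e1 : T * h - T = T * (h - 1) := by rw [mul_sub, mul_one]
      have e2 : (h - 1)ᴴ = h - 1 := by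
        rw [Matrix.conjTranspose_sub, Matrix.conjTranspose_one, hha]
      rw [e1]
      simp only [Matrix.conjTranspose_mul, hone, hqa, e2]
      have : (h - 1) * S * (h - 1) + q * q = (1 - S) * (1 - S) := by
        rw [hqq, hcfc]; abel
      calc yᴴ * (1 - S) * ((1 - S) * y) = yᴴ * ((1 - S) * (1 - S)) * y := by
            simp only [mul_assoc]
        _ = yᴴ * ((h - 1) * S * (h - 1) + q * q) * y := by rw [this]
        _ = _ := by rw [hS]; simp only [mul_add, add_mul, mul_assoc]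
    refine nrm2_le_of_hsSq_le ?_
    have := congrArg Matrix.trace key
    rw [Matrix.trace_add, trace_conjTranspose_mul_self, trace_conjTranspose_mul_self,
      trace_conjTranspose_mul_self, ← Complex.ofReal_add, Complex.ofReal_inj] at this
    linarith [hsSq_nonneg (q * y)]

/-- Powers of a contraction close to `T`, applied to `y`. -/
theorem nrm2_pow_sub_pow_le {T U : Matrix (Fin k) (Fin k) ℂ} (hU : ‖U‖ ≤ 1)
    (hUT : ∀ y, nrm2 ((U - T) * y) ≤ nrm2 ((1 - Tᴴ * T) * y))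
    (g : ℕ) (y : Matrix (Fin k) (Fin k) ℂ) :
    nrm2 ((U ^ g - T ^ g) * y) ≤ ∑ i ∈ Finset.range g, nrm2 ((1 - Tᴴ * T) * (T ^ i * y)) := by
  induction g with
  | zero => simp [nrm2_zero]
  | succ g ih =>
    rw [Finset.sum_range_succ]
    have e : (U ^ (g + 1) - T ^ (g + 1)) * y
        = U * ((U ^ g - T ^ g) * y) + (U - T) * (T ^ g * y) := by
      rw [pow_succ', pow_succ']
      simp only [sub_mul, mul_sub, mul_assoc]
      abel
    rw [e]
    refine (nrm2_add_le _ _).trans (add_le_add ?_ (hUT _))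
    exact ((nrm2_mul_le _ _).trans (mul_le_of_le_one_left (nrm2_nonneg _) hU)).trans ih

/-- Conjugation by powers of a contraction close to `T`. -/
theorem nrm2_conj_pow_sub_le {T U Z : Matrix (Fin k) (Fin k) ℂ} (hU : ‖U‖ ≤ 1)
    (hUT : ∀ y, nrm2 ((U - T) * y) ≤ nrm2 ((1 - Tᴴ * T) * y)) (hZ : Zᴴ = Z) (g : ℕ) :
    nrm2 (U ^ g * Z * (Uᴴ) ^ g - T ^ g * Z * (Tᴴ) ^ g)
      ≤ (∑ i ∈ Finset.range g, nrm2 ((1 - Tᴴ * T) * (T ^ i * (Z * (Tᴴ) ^ g))))
        + ∑ i ∈ Finset.range g, nrm2 ((1 - Tᴴ * T) * (T ^ i * Z)) := by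
  have e : U ^ g * Z * (Uᴴ) ^ g - T ^ g * Z * (Tᴴ) ^ g
      = (U ^ g - T ^ g) * (Z * (Tᴴ) ^ g) + U ^ g * ((U ^ g - T ^ g) * Z)ᴴ := by
    rw [Matrix.conjTranspose_mul, hZ, Matrix.conjTranspose_sub, Matrix.conjTranspose_pow,
      Matrix.conjTranspose_pow]
    simp only [sub_mul, mul_sub, mul_assoc]
    abel
  rw [e]
  refine (nrm2_add_le _ _).trans (add_le_add (nrm2_pow_sub_pow_le hU hUT g _) ?_)
  refine ((nrm2_mul_le _ _).trans
    (mul_le_of_le_one_left (nrm2_nonneg _) (norm_pow_le_one hU g))).trans ?_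
  rw [nrm2_conjTranspose]
  exact nrm2_pow_sub_pow_le hU hUT g Z

theorem norm_pow_sub_pow_le {U V : Matrix (Fin k) (Fin k) ℂ} (hU : ‖U‖ ≤ 1) (hV : ‖V‖ ≤ 1)
    (g : ℕ) : ‖U ^ g - V ^ g‖ ≤ g * ‖U - V‖ := by
  induction g with
  | zero => simp
  | succ g ih =>
    have e : U ^ (g + 1) - V ^ (g + 1) = (U ^ g - V ^ g) * U + V ^ g * (U - V) := by
      rw [pow_succ, pow_succ]
      simp only [sub_mul, mul_sub]
      abel
    rw [e]
    refine (norm_add_le _ _).trans ?_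
    have a1 : ‖(U ^ g - V ^ g) * U‖ ≤ g * ‖U - V‖ :=
      ((norm_mul_le _ _).trans (mul_le_of_le_one_right (norm_nonneg _) hU)).trans ih
    have a2 : ‖V ^ g * (U - V)‖ ≤ ‖U - V‖ :=
      (norm_mul_le _ _).trans (mul_le_of_le_one_left (norm_nonneg _) (norm_pow_le_one hV g))
    push_cast
    linarith

/-- Dependence of the centre on the net parameters. -/
theorem nrm2_conj_lipschitz {U V Z Z' : Matrix (Fin k) (Fin k) ℂ} (hU : ‖U‖ ≤ 1) (hV : ‖V‖ ≤ 1)
    (g : ℕ) :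
    nrm2 (U ^ g * Z * (Uᴴ) ^ g - V ^ g * Z' * (Vᴴ) ^ g)
      ≤ 2 * (g * ‖U - V‖) * nrm2 Z + nrm2 (Z - Z') := by
  have hU' : ‖(Uᴴ) ^ g‖ ≤ 1 := norm_pow_le_one (by rwa [Matrix.l2_opNorm_conjTranspose]) g
  have hV' : ‖(Vᴴ) ^ g‖ ≤ 1 := norm_pow_le_one (by rwa [Matrix.l2_opNorm_conjTranspose]) g
  have hd : ‖(Uᴴ) ^ g - (Vᴴ) ^ g‖ ≤ g * ‖U - V‖ := by
    rw [← Matrix.conjTranspose_pow, ← Matrix.conjTranspose_pow, ← Matrix.conjTranspose_sub,
      Matrix.l2_opNorm_conjTranspose]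
    exact norm_pow_sub_pow_le hU hV g
  have e : U ^ g * Z * (Uᴴ) ^ g - V ^ g * Z' * (Vᴴ) ^ g
      = (U ^ g - V ^ g) * Z * (Uᴴ) ^ g + V ^ g * Z * ((Uᴴ) ^ g - (Vᴴ) ^ g)
        + V ^ g * (Z - Z') * (Vᴴ) ^ g := by
    simp only [sub_mul, mul_sub]
    abel
  rw [e]
  refine (nrm2_add_le _ _).trans (add_le_add ((nrm2_add_le _ _).trans ?_) ?_)
  · have hn := nrm2_nonneg Z
    have b1 : nrm2 ((U ^ g - V ^ g) * Z * (Uᴴ) ^ g) ≤ g * ‖U - V‖ * nrm2 Z := by
      refine ((nrm2_mul_le' _ _).trans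
        (mul_le_of_le_one_right (nrm2_nonneg _) hU')).trans ?_
      exact (nrm2_mul_le _ _).trans
        (mul_le_mul_of_nonneg_right (norm_pow_sub_pow_le hU hV g) hn)
    have b2 : nrm2 (V ^ g * Z * ((Uᴴ) ^ g - (Vᴴ) ^ g)) ≤ g * ‖U - V‖ * nrm2 Z := by
      refine (nrm2_mul_le' _ _).trans ?_
      have := (nrm2_mul_le (V ^ g) Z).trans (mul_le_of_le_one_left hn (norm_pow_le_one hV g))
      calc nrm2 (V ^ g * Z) * ‖(Uᴴ) ^ g - (Vᴴ) ^ g‖ ≤ nrm2 Z * (g * ‖U - V‖) :=
            mul_le_mul this hd (norm_nonneg _) hn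
        _ = g * ‖U - V‖ * nrm2 Z := mul_comm _ _
    linarith
  · refine ((nrm2_mul_le' _ _).trans (mul_le_of_le_one_right (nrm2_nonneg _) hV')).trans ?_
    exact (nrm2_mul_le _ _).trans (mul_le_of_le_one_left (nrm2_nonneg _) (norm_pow_le_one hV g))

/-! ### Coordinates -/

theorem herm_conjTranspose (x : Fin k → Fin k → ℝ) : (herm x)ᴴ = herm x := by
  ext a b
  simp only [Matrix.conjTranspose_apply, herm, Matrix.of_apply]
  rcases lt_trichotomy a b with h | h | h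
  · simp [h.ne, h.ne', h, h.asymm, Complex.conj_ofReal, sub_eq_add_neg]
  · subst h; simp [Complex.conj_ofReal]
  · simp [h.ne, h.ne', h, h.asymm, Complex.conj_ofReal, sub_eq_add_neg]

theorem herm_sub (x y : Fin k → Fin k → ℝ) : herm (x - y) = herm x - herm y := by
  ext a b
  simp only [herm, Matrix.of_apply, Matrix.sub_apply, Pi.sub_apply, Complex.ofReal_sub]
  split_ifs <;> ring

theorem hsSq_herm (x : Fin k → Fin k → ℝ) : hsSq (herm x) = ∑ a, ∑ b, x a b ^ 2 := by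
  have h : ∀ a b : Fin k, ‖herm x a b‖ ^ 2 + ‖herm x b a‖ ^ 2 = x a b ^ 2 + x b a ^ 2 := by
    intro a b
    simp only [herm, Matrix.of_apply]
    rcases lt_trichotomy a b with h | h | h
    · rw [if_neg h.ne, if_pos h, if_neg h.ne', if_neg h.asymm]
      rw [Complex.sq_norm, Complex.sq_norm, Complex.normSq_div, Complex.normSq_div,
        Complex.normSq_ofReal, Real.mul_self_sqrt zero_le_two]
      simp only [Complex.normSq_apply, Complex.add_re, Complex.add_im,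
        Complex.sub_re, Complex.sub_im, Complex.mul_re, Complex.mul_im, Complex.ofReal_re,
        Complex.ofReal_im, Complex.I_re, Complex.I_im]
      ring
    · subst h; simp [sq]
    · rw [if_neg h.ne', if_neg h.asymm, if_neg h.ne, if_pos h]
      rw [Complex.sq_norm, Complex.sq_norm, Complex.normSq_div, Complex.normSq_div,
        Complex.normSq_ofReal, Real.mul_self_sqrt zero_le_two]
      simp only [Complex.normSq_apply, Complex.add_re, Complex.add_im,
        Complex.sub_re, Complex.sub_im, Complex.mul_re, Complex.mul_im, Complex.ofReal_re,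
        Complex.ofReal_im, Complex.I_re, Complex.I_im]
      ring
  have s : ∑ a, ∑ b, (‖herm x a b‖ ^ 2 + ‖herm x b a‖ ^ 2)
      = ∑ a, ∑ b, (x a b ^ 2 + x b a ^ 2) :=
    Finset.sum_congr rfl fun a _ => Finset.sum_congr rfl fun b _ => h a b
  simp only [Finset.sum_add_distrib] at s
  rw [Finset.sum_comm (f := fun a b => ‖herm x b a‖ ^ 2),
    Finset.sum_comm (f := fun a b => x b a ^ 2)] at s
  unfold hsSq
  linarith

/-- Coordinates of a matrix. -/
def hermCoord (H : Matrix (Fin k) (Fin k) ℂ) : Fin k → Fin k → ℝ := fun a b =>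
  if a = b then (H a a).re
  else if a < b then Real.sqrt 2 * (H a b).re else Real.sqrt 2 * (H b a).im

theorem herm_hermCoord {H : Matrix (Fin k) (Fin k) ℂ} (hH : Hᴴ = H) : herm (hermCoord H) = H := by
  ext a b
  have hc : ∀ i j, (starRingEnd ℂ) (H j i) = H i j := fun i j => congrFun (congrFun hH i) j
  have h2 : (Real.sqrt 2 : ℂ) ≠ 0 := by simp
  simp only [herm, Matrix.of_apply, hermCoord]
  rcases lt_trichotomy a b with h | h | h
  · simp only [h.ne, h.ne', h, h.asymm, if_false, if_true]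
    push_cast
    rw [div_eq_iff h2]
    linear_combination (Real.sqrt 2 : ℂ) * Complex.re_add_im (H a b)
  · subst h
    simp only [if_true]
    exact (Complex.conj_eq_iff_re.1 (hc a a))
  · simp only [h.ne, h.ne', h, h.asymm, if_false, if_true]
    push_cast
    rw [div_eq_iff h2, ← hc a b]
    apply Complex.ext <;> simp <;> ring

end

end VAgent.P087
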