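import Mathlib
import Vale.Agent.P087.Matrices
import Vale.Agent.P087.Micro.Frob

/-!
# Evaluation of polynomials, transfer of trace inequalities, a finite-dimensional model (P087)
-/

namespace VAgent.P087

open Filter Matrix
open scoped Matrix Matrix.Norms.L2Operator ComplexConjugate

noncomputable section

variable {N k : ℕ}

/-- Polynomials in `N` self-adjoint variables. -/
abbrev PolyA (N : ℕ) : Type := MonoidAlgebra ℂ (FreeMonoid (Fin N))

/-- A variable. -/
def varA (j : Fin N) : PolyA N := MonoidAlgebra.single (FreeMonoid.of j) 1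

/-- Evaluation at a tuple of matrices. -/
def evalA (A : Fin N → Matrix (Fin k) (Fin k) ℂ) : PolyA N →ₐ[ℂ] Matrix (Fin k) (Fin k) ℂ :=
  MonoidAlgebra.lift ℂ _ _ (FreeMonoid.lift A)

theorem evalA_varA (A : Fin N → Matrix (Fin k) (Fin k) ℂ) (j : Fin N) : evalA A (varA j) = A j := by
  simp [evalA, varA]

theorem evalA_eq_sum (A : Fin N → Matrix (Fin k) (Fin k) ℂ) (P : PolyA N) :
    evalA A P = ∑ w ∈ P.coeff.support, P.coeff w • wordMat A (FreeMonoid.toList w) := by
  rw [evalA, MonoidAlgebra.lift_apply, Finsupp.sum]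
  simp only [FreeMonoid.lift_apply, wordMat]

/-- The normalised trace as a linear map. -/
def ntrL (k : ℕ) : Matrix (Fin k) (Fin k) ℂ →ₗ[ℂ] ℂ :=
  (k : ℂ)⁻¹ • Matrix.traceLinearMap (Fin k) ℂ ℂ

theorem ntrL_apply (M : Matrix (Fin k) (Fin k) ℂ) : ntrL k M = ntr M := rfl

theorem ntr_one (hk : 1 ≤ k) : ntr (1 : Matrix (Fin k) (Fin k) ℂ) = 1 := by
  rw [ntr, Matrix.trace_one, Fintype.card_fin, inv_mul_cancel₀]
  exact_mod_cast (by omega : k ≠ 0)

theorem wordMat_append (A : Fin N → Matrix (Fin k) (Fin k) ℂ) (u v : List (Fin N)) :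
    wordMat A (u ++ v) = wordMat A u * wordMat A v := by
  simp [wordMat]

theorem wordMat_conjTranspose {A : Fin N → Matrix (Fin k) (Fin k) ℂ} (hA : ∀ j, (A j)ᴴ = A j)
    (w : List (Fin N)) : (wordMat A w)ᴴ = wordMat A w.reverse := by
  induction w with
  | nil => simp [wordMat]
  | cons a w ih =>
    rw [List.reverse_cons, wordMat_append, ← ih]
    simp [wordMat, hA a]

/-- A tuple of self-adjoint matrices whose moments of degree `1, …, M` are `ε`-close to `m`. -/
def IsMicro (m : List (Fin N) → ℂ) (A : Fin N → Matrix (Fin k) (Fin k) ℂ) (M : ℕ) (ε : ℝ) : Prop :=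
  (∀ j, (A j)ᴴ = A j) ∧
    ∀ w : List (Fin N), 1 ≤ w.length → w.length ≤ M → ‖ntr (wordMat A w) - m w‖ ≤ ε

theorem nrm2_evalA_sq {A : Fin N → Matrix (Fin k) (Fin k) ℂ} (hA : ∀ j, (A j)ᴴ = A j)
    (P : PolyA N) :
    nrm2 (evalA A P) ^ 2 = (∑ v ∈ P.coeff.support, ∑ w ∈ P.coeff.support,
      conj (P.coeff v) * P.coeff w *
        ntr (wordMat A ((FreeMonoid.toList v).reverse ++ FreeMonoid.toList w))).re := by
  rw [← ntr_conjTranspose_mul_self, ← ntrL_apply, evalA_eq_sum, Matrix.conjTranspose_sum,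
    Finset.sum_mul]
  simp only [Finset.mul_sum, map_sum, Matrix.conjTranspose_smul, wordMat_conjTranspose hA,
    smul_mul_smul_comm, map_smul, smul_eq_mul, ← wordMat_append, ntrL_apply]
  rfl

/-- Inequalities between Hilbert-Schmidt norms of polynomials transfer between microstates. -/
theorem exists_transfer (P : PolyA N) {δ : ℝ} (hδ : 0 < δ) :
    ∃ M₀ : ℕ, ∃ ε₀ > (0 : ℝ), ∀ (m : List (Fin N) → ℂ) (M : ℕ) (ε : ℝ), M₀ ≤ M → ε ≤ ε₀ →
      ∀ (k k' : ℕ), 1 ≤ k → 1 ≤ k' → ∀ (A : Fin N → Matrix (Fin k) (Fin k) ℂ)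
        (B : Fin N → Matrix (Fin k') (Fin k') ℂ), IsMicro m A M ε → IsMicro m B M ε →
          nrm2 (evalA A P) ≤ nrm2 (evalA B P) + δ := by
  set D : ℝ := ∑ v ∈ P.coeff.support, ∑ w ∈ P.coeff.support, ‖P.coeff v‖ * ‖P.coeff w‖ with hD
  have hD0 : 0 ≤ D := by rw [hD]; positivity
  refine ⟨2 * P.coeff.support.sup (fun w => (FreeMonoid.toList w).length), δ ^ 2 / (2 * D + 1),
    by positivity, fun m M ε hM hε k k' hk hk' A B hA hB => ?_⟩
  have key : ∀ v ∈ P.coeff.support, ∀ w ∈ P.coeff.support,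
      ‖ntr (wordMat A ((FreeMonoid.toList v).reverse ++ FreeMonoid.toList w))
        - ntr (wordMat B ((FreeMonoid.toList v).reverse ++ FreeMonoid.toList w))‖
        ≤ 2 * (δ ^ 2 / (2 * D + 1)) := by
    intro v hv w hw
    set u := (FreeMonoid.toList v).reverse ++ FreeMonoid.toList w with hu
    rcases Nat.eq_zero_or_pos u.length with h0 | h0
    · rw [List.length_eq_zero_iff.1 h0]
      have : (0 : ℝ) ≤ 2 * (δ ^ 2 / (2 * D + 1)) := by positivity
      simpa [wordMat, ntr_one hk, ntr_one hk'] using this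
    · have hle : u.length ≤ M := by
        have := Finset.le_sup (f := fun w => (FreeMonoid.toList w).length) hv
        have := Finset.le_sup (f := fun w => (FreeMonoid.toList w).length) hw
        simp only [hu, List.length_append, List.length_reverse]
        omega
      have a1 := (hA.2 u h0 hle).trans hε
      have a2 := (hB.2 u h0 hle).trans hε
      calc ‖ntr (wordMat A u) - ntr (wordMat B u)‖
          = ‖(ntr (wordMat A u) - m u) - (ntr (wordMat B u) - m u)‖ := by ring_nf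
        _ ≤ ‖ntr (wordMat A u) - m u‖ + ‖ntr (wordMat B u) - m u‖ := norm_sub_le _ _
        _ ≤ _ := by linarith
  have hsq : nrm2 (evalA A P) ^ 2 - nrm2 (evalA B P) ^ 2 ≤ δ ^ 2 := by
    rw [nrm2_evalA_sq hA.1, nrm2_evalA_sq hB.1, ← Complex.sub_re]
    refine (Complex.re_le_norm _).trans ?_
    simp only [← Finset.sum_sub_distrib, ← mul_sub]
    refine (norm_sum_le _ _).trans ?_
    refine le_trans (b := D * (2 * (δ ^ 2 / (2 * D + 1)))) ?_ ?_
    · rw [hD, Finset.sum_mul]
      refine Finset.sum_le_sum fun v hv => (norm_sum_le _ _).trans ?_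
      rw [Finset.sum_mul]
      refine Finset.sum_le_sum fun w hw => ?_
      rw [norm_mul, norm_mul, Complex.norm_conj]
      exact mul_le_mul_of_nonneg_left (key v hv w hw) (by positivity)
    · have : D * (2 * (δ ^ 2 / (2 * D + 1))) = δ ^ 2 * (2 * D / (2 * D + 1)) := by ring
      rw [this]
      exact mul_le_of_le_one_right (sq_nonneg δ) (div_le_one_of_le₀ (by linarith) (by linarith))
  have h1 := nrm2_nonneg (evalA B P)
  rw [← pow_le_pow_iff_left₀ (nrm2_nonneg _) (by linarith) two_ne_zero]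
  nlinarith

/-- Several polynomials at once. -/
theorem exists_transfer_finset (T : Finset (PolyA N)) {δ : ℝ} (hδ : 0 < δ) :
    ∃ M₀ : ℕ, ∃ ε₀ > (0 : ℝ), ∀ P ∈ T, ∀ (m : List (Fin N) → ℂ) (M : ℕ) (ε : ℝ), M₀ ≤ M → ε ≤ ε₀ →
      ∀ (k k' : ℕ), 1 ≤ k → 1 ≤ k' → ∀ (A : Fin N → Matrix (Fin k) (Fin k) ℂ)
        (B : Fin N → Matrix (Fin k') (Fin k') ℂ), IsMicro m A M ε → IsMicro m B M ε →
          nrm2 (evalA A P) ≤ nrm2 (evalA B P) + δ := by
  classical
  induction T using Finset.induction with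
  | empty => exact ⟨0, 1, one_pos, fun P hP => absurd hP (Finset.notMem_empty P)⟩
  | insert Q T _ ih =>
    obtain ⟨M₁, ε₁, hε₁, h₁⟩ := ih
    obtain ⟨M₂, ε₂, hε₂, h₂⟩ := exists_transfer Q hδ
    refine ⟨max M₁ M₂, min ε₁ ε₂, lt_min hε₁ hε₂, fun P hP m M ε hM hε => ?_⟩
    rcases Finset.mem_insert.1 hP with rfl | hP
    · exact h₂ m M ε (le_trans (le_max_right _ _) hM) (hε.trans (min_le_right _ _))
    · exact h₁ P hP m M ε (le_trans (le_max_left _ _) hM) (hε.trans (min_le_left _ _))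

/-! ### The model at matrices -/

section Model

variable {J : Type}

/-- Evaluation of polynomials in the letters. -/
def evalG (G : J → Matrix (Fin k) (Fin k) ℂ) : Poly J →ₐ[ℂ] Matrix (Fin k) (Fin k) ℂ :=
  MonoidAlgebra.lift ℂ _ _ (FreeMonoid.lift (letterMat G))

theorem evalG_polyU (G : J → Matrix (Fin k) (Fin k) ℂ) (i : ℤ) :
    evalG G (polyU i) = letterMat G (Sum.inl i) := by
  simp [evalG, polyU, letterPoly]

theorem evalG_polyG (G : J → Matrix (Fin k) (Fin k) ℂ) (j : J) : evalG G (polyG j) = G j := by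
  simp [evalG, polyG, letterPoly, letterMat]

theorem letterMat_mul (G : J → Matrix (Fin k) (Fin k) ℂ) (i j : ℤ) :
    letterMat G (Sum.inl i) * letterMat G (Sum.inl j) = letterMat G (Sum.inl (i + j)) := by
  ext a b
  have hk : (k : ℤ) ≠ 0 := by have := a.pos; omega
  set c : Fin k := ⟨((((b : ℕ) : ℤ) + j) % (k : ℤ)).toNat, by
    have h1 := Int.emod_nonneg (((b : ℕ) : ℤ) + j) hk
    have h2 := Int.emod_lt_of_pos (((b : ℕ) : ℤ) + j) (by have := a.pos; omega : (0 : ℤ) < k)
    omega⟩ with hc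
  have hcv : ((c : ℕ) : ℤ) = (((b : ℕ) : ℤ) + j) % (k : ℤ) := by
    rw [hc]; exact Int.toNat_of_nonneg (Int.emod_nonneg _ hk)
  rw [Matrix.mul_apply, Finset.sum_eq_single c]
  · have hcc : ((c : ℕ) : ℤ) ≡ ((b : ℕ) : ℤ) + j [ZMOD (k : ℤ)] := by
      rw [hcv]; exact Int.mod_modEq _ _
    simp only [letterMat, Matrix.of_apply, hcc, if_true, mul_one]
    have : ((a : ℕ) : ℤ) ≡ ((c : ℕ) : ℤ) + i [ZMOD (k : ℤ)]
        ↔ ((a : ℕ) : ℤ) ≡ ((b : ℕ) : ℤ) + (i + j) [ZMOD (k : ℤ)] := by
      have e : ((c : ℕ) : ℤ) + i ≡ ((b : ℕ) : ℤ) + (i + j) [ZMOD (k : ℤ)] := by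
        have := hcc.add_right i
        rwa [show ((b : ℕ) : ℤ) + j + i = ((b : ℕ) : ℤ) + (i + j) by ring] at this
      exact ⟨fun h => h.trans e, fun h => h.trans e.symm⟩
    simp only [this]
  · intro d _ hd
    have : ¬((d : ℕ) : ℤ) ≡ ((b : ℕ) : ℤ) + j [ZMOD (k : ℤ)] := by
      intro h
      apply hd
      ext
      have h' : (((d : ℕ) : ℤ)) % (k : ℤ) = ((c : ℕ) : ℤ) := by rw [hcv]; exact h
      rw [Int.emod_eq_of_lt (by positivity) (by exact_mod_cast d.isLt)] at h'
      exact_mod_cast h'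
    simp [letterMat, Matrix.of_apply, this]
  · simp

theorem letterMat_zero (G : J → Matrix (Fin k) (Fin k) ℂ) : letterMat G (Sum.inl 0) = 1 := by
  ext a b
  have : ((a : ℕ) : ℤ) ≡ ((b : ℕ) : ℤ) + 0 [ZMOD (k : ℤ)] ↔ a = b := by
    constructor
    · intro h
      ext
      rw [add_zero] at h
      have h' : ((a : ℕ) : ℤ) % (k : ℤ) = ((b : ℕ) : ℤ) % (k : ℤ) := h
      rw [Int.emod_eq_of_lt (by positivity) (by exact_mod_cast a.isLt),
        Int.emod_eq_of_lt (by positivity) (by exact_mod_cast b.isLt)] at h'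
      exact_mod_cast h'
    · rintro rfl; simp
  simp only [letterMat, Matrix.of_apply, Matrix.one_apply, this]

theorem letterMat_conjTranspose (G : J → Matrix (Fin k) (Fin k) ℂ) (i : ℤ) :
    (letterMat G (Sum.inl i))ᴴ = letterMat G (Sum.inl (-i)) := by
  ext a b
  have : ((b : ℕ) : ℤ) ≡ ((a : ℕ) : ℤ) + i [ZMOD (k : ℤ)]
      ↔ ((a : ℕ) : ℤ) ≡ ((b : ℕ) : ℤ) + -i [ZMOD (k : ℤ)] := by
    constructor
    · intro h; simpa using (h.add_right (-i)).symm
    · intro h; simpa using (h.add_right i).symm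
  simp only [letterMat, Matrix.conjTranspose_apply, Matrix.of_apply, this, apply_ite star, star_one,
    star_zero]

theorem norm_letterMat_le (G : J → Matrix (Fin k) (Fin k) ℂ) (i : ℤ) :
    ‖letterMat G (Sum.inl i)‖ ≤ 1 := by
  have h : (letterMat G (Sum.inl i))ᴴ * letterMat G (Sum.inl i) = 1 := by
    rw [letterMat_conjTranspose, letterMat_mul, neg_add_cancel, letterMat_zero]
  have h1 := norm_one_le (k := k)
  rw [← h, Matrix.l2_opNorm_conjTranspose_mul_self] at h1
  nlinarith [norm_nonneg (letterMat G (Sum.inl i))]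

theorem letterMat_natCast (G : J → Matrix (Fin k) (Fin k) ℂ) (g : ℕ) :
    letterMat G (Sum.inl (g : ℤ)) = (letterMat G (Sum.inl 1)) ^ g := by
  induction g with
  | zero => simpa using letterMat_zero G
  | succ g ih => rw [pow_succ, ← ih, letterMat_mul, Nat.cast_succ]

theorem letterMat_neg_natCast (G : J → Matrix (Fin k) (Fin k) ℂ) (g : ℕ) :
    letterMat G (Sum.inl (-(g : ℤ))) = ((letterMat G (Sum.inl 1))ᴴ) ^ g := by
  rw [← letterMat_conjTranspose, letterMat_natCast, Matrix.conjTranspose_pow]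

variable [DecidableEq J]

theorem tau_pair (j : J) : tau [Sum.inr j, Sum.inr j] = (1 : ℂ) := by
  have h0 : tau ([] : List (Letter J)) = 1 := by rw [tau]; simp [charge]
  have hx : ∃ l : Fin ([Sum.inr j, Sum.inr j] : List (Letter J)).length,
      ((([Sum.inr j, Sum.inr j] : List (Letter J))).get l).isRight = true := ⟨⟨0, by simp⟩, rfl⟩
  rw [tau, dif_pos hx]
  have hl : ∀ l : Fin ([Sum.inr j, Sum.inr j] : List (Letter J)).length,
      l = ⟨0, by simp⟩ →
      (∑ q : Fin (List.drop (l + 1) ([Sum.inr j, Sum.inr j] : List (Letter J))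
          ++ List.take l [Sum.inr j, Sum.inr j]).length,
        if (List.drop (l + 1) ([Sum.inr j, Sum.inr j] : List (Letter J))
          ++ List.take l [Sum.inr j, Sum.inr j]).get q
            = ([Sum.inr j, Sum.inr j] : List (Letter J)).get l then
          tau (List.take q (List.drop (l + 1) ([Sum.inr j, Sum.inr j] : List (Letter J))
            ++ List.take l [Sum.inr j, Sum.inr j]))
          * tau (List.drop (q + 1) (List.drop (l + 1) ([Sum.inr j, Sum.inr j] : List (Letter J))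
            ++ List.take l [Sum.inr j, Sum.inr j]))
        else 0) = 1 := by
    rintro l rfl
    rw [Fintype.sum_eq_single ⟨0, by simp⟩ (fun q hq => absurd (Fin.ext (by
      have := q.isLt; simp at this ⊢; omega)) hq)]
    simp [h0]
  refine hl _ ?_
  rw [Fin.find_eq_iff]
  exact ⟨rfl, fun l hl => absurd hl (by simp)⟩

theorem tauL_eq_sum (Q : Poly J) :
    tauL Q = ∑ w ∈ Q.coeff.support, Q.coeff w * tau (FreeMonoid.toList w) := by
  simp only [tauL, Module.Basis.constr_apply]
  rfl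

end Model

/-- Finite-dimensional approximants of the model. -/
theorem exists_model (p : Params) (M : ℕ) {ε : ℝ} (hε : 0 < ε) :
    ∃ k : ℕ, 1 ≤ k ∧ ∃ G : p.Noise → Matrix (Fin k) (Fin k) ℂ,
      (∀ j, (G j)ᴴ = G j ∧ ‖G j‖ ≤ 16 ∧ nrm2 (G j) ^ 2 ≤ 1 + ε) ∧
        ∀ w : List (Fin (2 + p.n)), w.length ≤ M →
          ‖ntr (wordMat (fun j => evalG G (p.Y 0 j)) w) - p.law 0 w‖ ≤ ε := by
  classical
  set W : Finset (List (Fin (2 + p.n))) := (List.finite_length_le (Fin (2 + p.n)) M).toFinset with hW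
  set Qs : List (Fin (2 + p.n)) → Poly p.Noise := fun w => (w.map (p.Y 0)).prod with hQs
  set D : ℝ := ∑ w ∈ W, ∑ u ∈ (Qs w).coeff.support, ‖(Qs w).coeff u‖ with hD
  have hD0 : 0 ≤ D := by rw [hD]; positivity
  set S : Finset (List (Letter p.Noise)) :=
    (W.biUnion fun w => (Qs w).coeff.support.image FreeMonoid.toList)
      ∪ Finset.univ.image (fun j : p.Noise => [Sum.inr j, Sum.inr j]) with hS
  have hε' : 0 < ε / (D + 1) := by positivity
  have hev := (gauss_microstates S hε').and (eventually_ge_atTop 1)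
  obtain ⟨k, hP, hk⟩ := hev.exists
  have hne : ({x : p.Noise → Fin k → Fin k → ℝ |
      (∀ w ∈ S, ‖ntr ((w.map (letterMat fun j => herm (x j))).prod) - tau w‖ < ε / (D + 1)) ∧
        ∀ j, OpLe (herm (x j)) 16}).Nonempty := by
    by_contra hc
    rw [Set.not_nonempty_iff_eq_empty] at hc
    rw [hc, MeasureTheory.measure_empty] at hP
    simp at hP
  obtain ⟨x, hxS, hxR⟩ := hne
  set G : p.Noise → Matrix (Fin k) (Fin k) ℂ := fun j => herm (x j) with hG
  refine ⟨k, hk, G, fun j => ⟨herm_conjTranspose _, opNorm_le_of_opLe (by norm_num) (hxR j), ?_⟩, ?_⟩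
  · have h := hxS [Sum.inr j, Sum.inr j]
      (Finset.mem_union_right _ (Finset.mem_image_of_mem _ (Finset.mem_univ j)))
    rw [tau_pair] at h
    rw [← ntr_conjTranspose_mul_self, herm_conjTranspose]
    have h' := (Complex.re_le_norm _).trans h.le
    simp only [List.map_cons, List.map_nil, List.prod_cons, List.prod_nil, mul_one, letterMat,
      Complex.sub_re, Complex.one_re] at h'
    have : ε / (D + 1) ≤ ε := div_le_self hε.le (by linarith)
    linarith
  · intro w hw
    have hwW : w ∈ W := by rw [hW, Set.Finite.mem_toFinset]; exact hw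
    have e1 : wordMat (fun j => evalG G (p.Y 0 j)) w = evalG G (Qs w) := by
      simp only [hQs, wordMat, map_list_prod, List.map_map]
      rfl
    have e2 : evalG G (Qs w) = ∑ u ∈ (Qs w).coeff.support,
        (Qs w).coeff u • ((FreeMonoid.toList u).map (letterMat G)).prod := by
      rw [evalG, MonoidAlgebra.lift_apply, Finsupp.sum]
      simp only [FreeMonoid.lift_apply]
    rw [e1, Params.law, e2, ← ntrL_apply, tauL_eq_sum, map_sum]
    simp only [map_smul, smul_eq_mul, ntrL_apply, ← Finset.sum_sub_distrib, ← mul_sub, hQs]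
    refine (norm_sum_le _ _).trans ?_
    refine le_trans (b := (∑ u ∈ (Qs w).coeff.support, ‖(Qs w).coeff u‖) * (ε / (D + 1))) ?_ ?_
    · rw [Finset.sum_mul]
      refine Finset.sum_le_sum fun u hu => ?_
      rw [norm_mul]
      refine mul_le_mul_of_nonneg_left ?_ (norm_nonneg _)
      exact (hxS _ (Finset.mem_union_left _ (Finset.mem_biUnion.2
        ⟨w, hwW, Finset.mem_image_of_mem _ hu⟩))).le
    · refine le_trans (mul_le_mul_of_nonneg_right (Finset.single_le_sum
        (f := fun v => ∑ u ∈ (Qs v).coeff.support, ‖(Qs v).coeff u‖)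
        (fun v _ => by positivity) hwW) hε'.le) ?_
      rw [← hD, mul_div_assoc', div_le_iff₀ (by linarith)]
      nlinarith

end

end VAgent.P087
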