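import Mathlib

/-!
# Nets in finite-dimensional normed spaces (upper bound of P087)

A subset of the ball of radius `ρ` has a `δ`-net inside itself with at most `(1 + 2ρ/δ)^d` points.
-/

namespace VAgent.P087

open MeasureTheory Metric Module Finset
open scoped ENNReal

variable {E : Type*} [NormedAddCommGroup E] [NormedSpace ℝ E] [FiniteDimensional ℝ E]

/-- A separated subset of a ball is small. -/
theorem card_separated_le {ρ δ : ℝ} (hρ : 0 ≤ ρ) (hδ : 0 < δ) (s : Finset E)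
    (hs : ∀ c ∈ s, ‖c‖ ≤ ρ) (h : ∀ c ∈ s, ∀ d ∈ s, c ≠ d → δ ≤ ‖c - d‖) :
    (s.card : ℝ) ≤ (1 + 2 * ρ / δ) ^ finrank ℝ E := by
  borelize E
  let μ : Measure E := Measure.addHaar
  have h2 : 0 < δ / 2 := by positivity
  have hR : 0 < ρ + δ / 2 := by positivity
  have D : Set.Pairwise (s : Set E) (Function.onFun Disjoint fun c => ball (c : E) (δ / 2)) := by
    rintro c hc d hd hcd
    apply ball_disjoint_ball
    rw [dist_eq_norm]
    have := h c hc d hd hcd
    linarith
  have hsub : (⋃ c ∈ s, ball (c : E) (δ / 2)) ⊆ ball (0 : E) (ρ + δ / 2) := by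
    refine Set.iUnion₂_subset fun x hx => ball_subset_ball' ?_
    rw [dist_zero_right]
    linarith [hs x hx]
  have I : (s.card : ℝ≥0∞) * ENNReal.ofReal ((δ / 2) ^ finrank ℝ E) * μ (ball 0 1)
      ≤ ENNReal.ofReal ((ρ + δ / 2) ^ finrank ℝ E) * μ (ball 0 1) := by
    calc (s.card : ℝ≥0∞) * ENNReal.ofReal ((δ / 2) ^ finrank ℝ E) * μ (ball 0 1)
        = μ (⋃ c ∈ s, ball (c : E) (δ / 2)) := by
          rw [measure_biUnion_finset D fun c _ => measurableSet_ball]
          simp only [μ.addHaar_ball_of_pos _ h2, Finset.sum_const, nsmul_eq_mul, mul_assoc]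
      _ ≤ μ (ball (0 : E) (ρ + δ / 2)) := measure_mono hsub
      _ = _ := μ.addHaar_ball_of_pos _ hR
  have J := (ENNReal.mul_le_mul_iff_left (measure_ball_pos μ _ zero_lt_one).ne'
    measure_ball_lt_top.ne).1 I
  have K := ENNReal.toReal_le_of_le_ofReal (pow_nonneg hR.le _) J
  rw [ENNReal.toReal_mul, ENNReal.toReal_natCast, ENNReal.toReal_ofReal (pow_nonneg h2.le _)] at K
  have e : (1 + 2 * ρ / δ) ^ finrank ℝ E
      = (ρ + δ / 2) ^ finrank ℝ E / (δ / 2) ^ finrank ℝ E := by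
    rw [← div_pow]; congr 1; field_simp; ring
  rw [e, le_div_iff₀ (pow_pos h2 _)]
  exact K

/-- A net inside the set with few points. -/
theorem exists_small_net {ρ δ : ℝ} (hρ : 0 ≤ ρ) (hδ : 0 < δ) (S : Set E)
    (hS : ∀ c ∈ S, ‖c‖ ≤ ρ) :
    ∃ t : Finset E, (↑t ⊆ S) ∧ (t.card : ℝ) ≤ (1 + 2 * ρ / δ) ^ finrank ℝ E ∧
      ∀ x ∈ S, ∃ y ∈ t, ‖x - y‖ ≤ δ := by
  classical
  let P : ℕ → Prop := fun m => ∃ t : Finset E, t.card = m ∧ ↑t ⊆ S ∧
    ∀ c ∈ t, ∀ d ∈ t, c ≠ d → δ ≤ ‖c - d‖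
  set B := ⌊(1 + 2 * ρ / δ) ^ finrank ℝ E⌋₊ with hB
  have hbound : ∀ m, P m → m ≤ B := by
    rintro m ⟨t, rfl, htS, htsep⟩
    exact Nat.le_floor (card_separated_le hρ hδ t (fun c hc => hS c (htS hc)) htsep)
  have hP0 : P 0 := ⟨∅, by simp, by simp, by simp⟩
  set m := Nat.findGreatest P B with hm
  obtain ⟨t, htc, htS, htsep⟩ : P m := Nat.findGreatest_spec (Nat.zero_le B) hP0
  refine ⟨t, htS, card_separated_le hρ hδ t (fun c hc => hS c (htS hc)) htsep, fun x hx => ?_⟩
  by_contra hne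
  simp only [not_exists, not_and, not_le] at hne
  have hxt : x ∉ t := fun hxt => by
    have := hne x hxt
    simp only [sub_self, norm_zero] at this
    linarith
  have hP : P (m + 1) := by
    refine ⟨insert x t, ?_, ?_, ?_⟩
    · rw [Finset.card_insert_of_notMem hxt, htc]
    · rw [Finset.coe_insert]; exact Set.insert_subset hx htS
    · intro c hc d hd hcd
      rcases Finset.mem_insert.1 hc with hc' | hc' <;> rcases Finset.mem_insert.1 hd with hd' | hd'
      · exact absurd (hc'.trans hd'.symm) hcd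
      · rw [hc']; exact (hne d hd').le
      · rw [hd', norm_sub_rev]; exact (hne c hc').le
      · exact htsep c hc' d hd' hcd
  have := Nat.le_findGreatest (hbound _ hP) hP
  omega

end VAgent.P087
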