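import Mathlib

/-!
# Volume bounds for Euclidean balls (microstate side of P087)

`volume (closedBall x r)` in dimension `m` is at most `(2 π e r² / m)^(m/2)`, plus the version for
a joint ball in a finite product of Euclidean spaces and for finite unions of such balls.
-/

open MeasureTheory Real Set Metric Finset
open scoped ENNReal BigOperators

namespace VAgent.P087

/-- Elementary Stirling lower bound for the Gamma function. -/
theorem gamma_ge_rpow_mul_exp {x : ℝ} (hx : 0 < x) :
    x ^ x * exp (-x) ≤ Gamma (x + 1) := by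
  rw [Gamma_eq_integral (by linarith)]
  simp only [add_sub_cancel_right]
  have hint : IntegrableOn (fun t : ℝ => exp (-t) * t ^ x) (Ioi 0) := by
    simpa using GammaIntegral_convergent (s := x + 1) (by linarith)
  calc x ^ x * exp (-x) = ∫ t in Ioi x, exp (-t) * x ^ x := by
        rw [integral_mul_const, integral_exp_neg_Ioi]; ring
    _ ≤ ∫ t in Ioi x, exp (-t) * t ^ x := by
        refine setIntegral_mono_on ((integrableOn_exp_neg_Ioi x).mul_const _)
          (hint.mono_set (Ioi_subset_Ioi hx.le)) measurableSet_Ioi fun t ht => ?_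
        have : x ^ x ≤ t ^ x := rpow_le_rpow hx.le (le_of_lt ht) hx.le
        exact mul_le_mul_of_nonneg_left this (exp_pos _).le
    _ ≤ ∫ t in Ioi 0, exp (-t) * t ^ x := by
        refine setIntegral_mono_set hint ?_ (Ioi_subset_Ioi hx.le).eventuallyLE
        filter_upwards [ae_restrict_mem measurableSet_Ioi] with t ht
        have ht0 : (0 : ℝ) < t := ht
        positivity

/-- The bound on the volume of a ball of radius `r` in dimension `m`. -/
noncomputable def ballBound (m : ℕ) (r : ℝ) : ℝ :=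
  (2 * π * exp 1 * r ^ 2 / m) ^ ((m : ℝ) / 2)

theorem ballBound_nonneg (m : ℕ) (r : ℝ) : 0 ≤ ballBound m r := by
  unfold ballBound
  positivity

theorem ballBound_zero (r : ℝ) : ballBound 0 r = 1 := by
  simp [ballBound]

theorem log_ballBound (m : ℕ) {r : ℝ} (hr : r ≠ 0) :
    log (ballBound m r) = (m : ℝ) / 2 * log (2 * π * exp 1 * r ^ 2 / m) := by
  rcases Nat.eq_zero_or_pos m with hm | hm
  · simp [hm, ballBound]
  · have h : 0 < 2 * π * exp 1 * r ^ 2 / (m : ℝ) := by
      have : (0 : ℝ) < m := by exact_mod_cast hm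
      positivity
    rw [ballBound, log_rpow h]

theorem volume_closedBall_le {ι : Type*} [Fintype ι] [Nonempty ι]
    (x : EuclideanSpace ℝ ι) {r : ℝ} (hr : 0 ≤ r) :
    volume (closedBall x r) ≤ ENNReal.ofReal (ballBound (Fintype.card ι) r) := by
  rw [EuclideanSpace.volume_closedBall, ← ENNReal.ofReal_pow hr,
    ← ENNReal.ofReal_mul (pow_nonneg hr _)]
  refine ENNReal.ofReal_le_ofReal ?_
  set m := Fintype.card ι with hm
  have hm0 : (0 : ℝ) < m := by exact_mod_cast Fintype.card_pos
  set y : ℝ := (m : ℝ) / 2 with hy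
  have hy0 : 0 < y := by positivity
  have hG := gamma_ge_rpow_mul_exp hy0
  have hG0 : 0 < y ^ y * exp (-y) := by positivity
  have e1 : √π ^ m = π ^ y := by
    rw [sqrt_eq_rpow, ← rpow_natCast (π ^ (1 / (2 : ℝ))) m, ← rpow_mul pi_pos.le]
    congr 1; rw [hy]; ring
  have e2 : r ^ m = (r ^ 2) ^ y := by
    rw [← rpow_natCast r 2, ← rpow_mul hr, ← rpow_natCast r m]
    congr 1; rw [hy]; push_cast; ring
  have e3 : ballBound m r = π ^ y * (r ^ 2) ^ y * exp y / y ^ y := by
    have : 2 * π * exp 1 * r ^ 2 / (m : ℝ) = π * r ^ 2 * exp 1 / y := by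
      rw [hy]; field_simp
    rw [ballBound, ← hy, this, div_rpow (by positivity) hy0.le,
      mul_rpow (by positivity) (exp_pos _).le, mul_rpow pi_pos.le (sq_nonneg r), exp_one_rpow]
  rw [e1, e2, e3]
  calc (r ^ 2) ^ y * (π ^ y / Gamma (y + 1))
      ≤ (r ^ 2) ^ y * (π ^ y / (y ^ y * exp (-y))) := by
        refine mul_le_mul_of_nonneg_left ?_ (rpow_nonneg (sq_nonneg r) y)
        exact div_le_div_of_nonneg_left (rpow_nonneg pi_pos.le y) hG0 hG
    _ = π ^ y * (r ^ 2) ^ y * exp y / y ^ y := by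
        rw [exp_neg]; field_simp

/-- Volume preservation of uncurrying for finite products of Lebesgue measure. -/
theorem volume_preserving_uncurry (ι κ : Type*) [Fintype ι] [Fintype κ] :
    MeasurePreserving (MeasurableEquiv.curry ι κ ℝ).symm
      (volume : Measure (ι → κ → ℝ)) (volume : Measure (ι × κ → ℝ)) := by
  refine ⟨(MeasurableEquiv.curry ι κ ℝ).symm.measurable, ?_⟩
  symm
  refine Measure.pi_eq fun s _ => ?_
  rw [MeasurableEquiv.map_apply]
  have : (MeasurableEquiv.curry ι κ ℝ).symm ⁻¹' (Set.univ.pi s)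
      = Set.univ.pi fun i => Set.univ.pi fun j => s (i, j) := by
    ext f
    simp [MeasurableEquiv.coe_curry_symm, Prod.forall]
  rw [this, volume_pi_pi]
  simp_rw [volume_pi_pi, ← Finset.univ_product_univ]
  rw [Finset.prod_product]

/-- Flattening a tuple of Euclidean vectors. -/
noncomputable def flatten (ν ι : Type*) [Fintype ν] [Fintype ι] :
    (ν → EuclideanSpace ℝ ι) ≃ᵐ EuclideanSpace ℝ (ν × ι) :=
  ((MeasurableEquiv.piCongrRight fun _ : ν =>
      (MeasurableEquiv.toLp 2 (ι → ℝ)).symm).trans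
    (MeasurableEquiv.curry ν ι ℝ).symm).trans (MeasurableEquiv.toLp 2 (ν × ι → ℝ))

theorem flatten_apply {ν ι : Type*} [Fintype ν] [Fintype ι] (A : ν → EuclideanSpace ℝ ι)
    (p : ν × ι) : flatten ν ι A p = A p.1 p.2 := rfl

theorem volume_preserving_flatten (ν ι : Type*) [Fintype ν] [Fintype ι] :
    MeasurePreserving (flatten ν ι) volume volume := by
  have h1 : MeasurePreserving (MeasurableEquiv.piCongrRight fun _ : ν =>
      (MeasurableEquiv.toLp 2 (ι → ℝ)).symm) :=
    measurePreserving_pi _ _ fun _ => PiLp.volume_preserving_ofLp ι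
  exact (PiLp.volume_preserving_toLp (ν × ι)).comp ((volume_preserving_uncurry ν ι).comp h1)

theorem norm_sq_flatten {ν ι : Type*} [Fintype ν] [Fintype ι] (A : ν → EuclideanSpace ℝ ι) :
    ‖flatten ν ι A‖ ^ 2 = ∑ j, ‖A j‖ ^ 2 := by
  simp only [EuclideanSpace.norm_sq_eq]
  rw [Fintype.sum_prod_type]
  rfl

theorem flatten_sub {ν ι : Type*} [Fintype ν] [Fintype ι] (A B : ν → EuclideanSpace ℝ ι) :
    flatten ν ι (A - B) = flatten ν ι A - flatten ν ι B := rfl

/-- Joint ball in a product of Euclidean spaces. -/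
def jointBall {ν E : Type*} [Fintype ν] [SeminormedAddCommGroup E] (c : ν → E) (r : ℝ) :
    Set (ν → E) :=
  {A | ∑ j, ‖A j - c j‖ ^ 2 ≤ r ^ 2}

theorem volume_jointBall_le {ν ι : Type*} [Fintype ν] [Fintype ι] [Nonempty ν] [Nonempty ι]
    (c : ν → EuclideanSpace ℝ ι) {r : ℝ} (hr : 0 ≤ r) :
    volume (jointBall c r)
      ≤ ENNReal.ofReal (ballBound (Fintype.card ν * Fintype.card ι) r) := by
  have hset : jointBall c r = flatten ν ι ⁻¹' closedBall (flatten ν ι c) r := by
    ext A
    simp only [jointBall, Set.mem_preimage, Metric.mem_closedBall, Set.mem_ofPred_eq,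
      dist_eq_norm, ← flatten_sub]
    rw [← pow_le_pow_iff_left₀ (norm_nonneg _) hr two_ne_zero, norm_sq_flatten]
    rfl
  rw [hset, (volume_preserving_flatten ν ι).measure_preimage
    measurableSet_closedBall.nullMeasurableSet]
  simpa [Fintype.card_prod] using volume_closedBall_le (flatten ν ι c) hr

/-- A set covered by finitely many sets of bounded measure. -/
theorem measure_le_card_mul_of_cover {α β : Type*} [MeasurableSpace α] (μ : Measure α)
    {S : Set α} {N : Finset β} {B : β → Set α} {b : ℝ≥0∞} {M : ℕ}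
    (hS : S ⊆ ⋃ i ∈ N, B i) (hB : ∀ i ∈ N, μ (B i) ≤ b) (hN : N.card ≤ M) :
    μ S ≤ M * b := by
  calc μ S ≤ μ (⋃ i ∈ N, B i) := measure_mono hS
    _ ≤ ∑ i ∈ N, μ (B i) := measure_biUnion_finset_le N B
    _ ≤ ∑ _i ∈ N, b := Finset.sum_le_sum hB
    _ = N.card * b := by rw [Finset.sum_const, nsmul_eq_mul]
    _ ≤ M * b := by gcongr

end VAgent.P087
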